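import Vale.Agent.P290.K.AllDefs
import Vale.Agent.P267.H205.P1e
import Vale.Agent.P267.H399.LBCalc

/-! P290Z, block COV, step TRIV: a family of lines on the blow up is trivial on the punctured
ball. -/

open Set Filter Metric
open scoped Topology ContDiff ComplexConjugate Matrix

set_option linter.unusedSectionVars false

noncomputable section

namespace Vale.Agent.P290Z.Cov.Tv

open Vale.Agent.P290.All (dir)
open Vale.Agent.P267.FL (LB)
open Vale.Agent.P267.H205.P1 (LC LP1 Frames)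

variable {ι : Type} [Fintype ι] [DecidableEq ι]

/-- a family of lines in the homogeneous coordinates -/
structure Fam (ε : ℝ) (Q : ℂ → ℂ × ℂ → Matrix ι ι ℂ) : Prop where
  hom : ∀ h t d, t ≠ 0 → Q (h * t ^ 2) d = Q h (t • d)
  sm : ∀ b (v : ℂ × ℂ), ‖v.1‖ * ‖dir b v.2‖ ^ 2 < ε → ∀ i j,
    ContDiffAt ℝ ∞ (fun w : ℂ × ℂ => Q w.1 (dir b w.2) i j) v
  herm : ∀ h d, (Q h d)ᴴ = Q h d
  idem : ∀ h d, Q h d * Q h d = Q h d
  tr : ∀ h d, (Q h d).trace = 1

theorem rank_act {M : Matrix ι ι ℂ} (h1 : Mᴴ = M) (h2 : M * M = M) (h3 : M.trace = 1) :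
    ∃ e : EuclideanSpace ℂ ι, e ≠ 0 ∧ LB.actL M e = e ∧ ∀ v, ∃ c : ℂ, LB.actL M v = c • e := by
  obtain ⟨v, hv, hv1⟩ := LB.rank_one_vec h1 h2 h3
  have key : ∀ w : EuclideanSpace ℂ ι,
      LB.actL M w = (∑ j, conj (v j) * w j) • (WithLp.toLp 2 v : EuclideanSpace ℂ ι) := by
    intro w
    ext i
    rw [LB.actL_apply, LB.act_apply]
    simp only [hv, PiLp.smul_apply, smul_eq_mul, Finset.sum_mul]
    exact Finset.sum_congr rfl fun j _ => by ring
  refine ⟨WithLp.toLp 2 v, ?_, ?_, fun w => ⟨_, key w⟩⟩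
  · intro h0
    have h4 : ∀ i, v i = 0 := fun i => by
      have := congrArg (fun u : EuclideanSpace ℂ ι => u i) h0
      simpa using this
    rw [Finset.sum_eq_zero fun i _ => by rw [h4 i, zero_mul]] at hv1
    exact zero_ne_one hv1
  · rw [key]
    have : (∑ j, conj (v j) * (WithLp.toLp 2 v : EuclideanSpace ℂ ι) j) = 1 := by
      rw [← hv1]
      exact Finset.sum_congr rfl fun j _ => by rw [mul_comm]
    rw [this, one_smul]

theorem contDiffAt_act {V : Type} [NormedAddCommGroup V] [NormedSpace ℝ V]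
    {M : V → Matrix ι ι ℂ} {s : V → EuclideanSpace ℂ ι} {v : V}
    (hM : ∀ i j, ContDiffAt ℝ ∞ (fun w => M w i j) v) (hs : ContDiffAt ℝ ∞ s v) :
    ContDiffAt ℝ ∞ (fun w => LB.act (M w) (s w)) v := by
  have h1 : ContDiffAt ℝ ∞ (fun w i => ∑ j, M w i j * s w j) v :=
    contDiffAt_pi.2 fun i => ContDiffAt.sum fun j _ => (hM i j).mul
      (((PiLp.proj (𝕜 := ℝ) 2 (fun _ : ι => ℂ) j).contDiff.contDiffAt).comp _ hs)
  exact ((PiLp.continuousLinearEquiv 2 ℝ (fun _ : ι => ℂ)).symm.contDiff.contDiffAt).comp _ h1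

variable {ε : ℝ} {Q : ℂ → ℂ × ℂ → Matrix ι ι ℂ}

theorem Fam.sm0 (H : Fam ε Q) (hε : 0 < ε) (b : Bool) (i j : ι) :
    ContDiff ℝ ∞ fun u : ℂ => Q 0 (dir b u) i j :=
  contDiff_iff_contDiffAt.2 fun u =>
    (H.sm b (0, u) (by simpa using hε) i j).comp (f := fun u : ℂ => ((0 : ℂ), u)) u
      (contDiffAt_const.prodMk contDiffAt_id)

/-- the restriction to a chart of the curve -/
def Fam.lc (H : Fam ε Q) (hε : 0 < ε) (b : Bool) : LC (EuclideanSpace ℂ ι) where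
  T u := LB.actL (Q 0 (dir b u))
  a _ := 0
  smooth_T := by
    have h : (fun u => LB.actL (Q 0 (dir b u))) =
        fun u => ∑ i, ∑ j, Q 0 (dir b u) i j • LB.elem (ι := ι) i j := by
      funext z
      ext v : 1
      rw [LB.actL_apply, LB.act_eq_sum']
      simp only [FunLike.coe_sum, Finset.sum_apply, FunLike.coe_smul, Pi.smul_apply]
    rw [h]
    exact ContDiff.sum fun i _ => ContDiff.sum fun j _ => (H.sm0 hε b i j).smul contDiff_const
  smooth_a := contDiff_const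
  idem z v := by rw [LB.actL_apply, LB.actL_apply, ← LB.act_mul, H.idem]
  rank z := rank_act (H.herm _ _) (H.idem _ _) (H.tr _ _)

theorem Fam.frames (H : Fam ε Q) (hε : 0 < ε) : ∃ (k : ℤ) (s : Bool → ℂ → EuclideanSpace ℂ ι),
    (∀ b, ContDiff ℝ ∞ (s b)) ∧ (∀ b u, s b u ≠ 0) ∧
    (∀ b u, LB.act (Q 0 (dir b u)) (s b u) = s b u) ∧
    ∀ u, u ≠ 0 → s true u = u ^ k • s false u⁻¹ := by
  let Λ : LP1 (EuclideanSpace ℂ ι) :=
    { L₀ := H.lc hε true
      L₁ := H.lc hε false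
      glue_T := fun z hz => by
        change LB.actL (Q 0 (dir true z)) = LB.actL (Q 0 (dir false z⁻¹))
        have h1 := H.hom 0 z (dir false z⁻¹) hz
        rw [zero_mul] at h1
        rw [h1]
        simp [dir, mul_inv_cancel₀ hz]
      glue_a := fun z _ => by
        change (0 : ℂ) = _ * 0
        rw [mul_zero] }
  obtain ⟨k, s₀, s₁, F⟩ := Λ.exists_frames
  refine ⟨-k, fun b => cond b s₀ s₁, ?_, ?_, ?_, F.glue⟩
  · rintro (_ | _)
    exacts [F.sec₁.1, F.sec₀.1]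
  · rintro (_ | _)
    exacts [F.ne₁, F.ne₀]
  · rintro (_ | _)
    exacts [F.sec₁.2, F.sec₀.2]

/-- the larger coordinate -/
def cs (b : Bool) (d : ℂ × ℂ) : ℂ := cond b d.1 d.2

/-- the affine coordinate -/
def cu (b : Bool) (d : ℂ × ℂ) : ℂ := cond b (d.2 / d.1) (d.1 / d.2)

theorem smul_dir {b : Bool} {d : ℂ × ℂ} (h : cs b d ≠ 0) : cs b d • dir b (cu b d) = d := by
  cases b
  · have h' : d.2 ≠ 0 := h
    ext <;> simp [cs, cu, dir, mul_div_cancel₀ _ h']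
  · have h' : d.1 ≠ 0 := h
    ext <;> simp [cs, cu, dir, mul_div_cancel₀ _ h']

theorem cs_sm (b : Bool) : ContDiff ℝ ∞ (cs b) := by
  cases b
  exacts [contDiff_snd, contDiff_fst]

theorem cu_sm {b : Bool} {d : ℂ × ℂ} (h : cs b d ≠ 0) : ContDiffAt ℝ ∞ (cu b) d := by
  cases b
  · have h1 : ContDiffAt ℝ ∞ (fun d : ℂ × ℂ => d.1 * d.2⁻¹) d :=
      contDiffAt_fst.mul (contDiffAt_snd.inv h)
    exact h1.congr_of_eventuallyEq (Eventually.of_forall fun y => div_eq_mul_inv _ _)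
  · have h1 : ContDiffAt ℝ ∞ (fun d : ℂ × ℂ => d.2 * d.1⁻¹) d :=
      contDiffAt_snd.mul (contDiffAt_fst.inv h)
    exact h1.congr_of_eventuallyEq (Eventually.of_forall fun y => div_eq_mul_inv _ _)

theorem exists_b {d : ℂ × ℂ} (hd : d ≠ 0) : ∃ b, cs b d ≠ 0 ∧ ‖cu b d‖ ≤ 1 := by
  rcases le_total ‖d.1‖ ‖d.2‖ with h | h
  · have h2 : d.2 ≠ 0 := fun h0 => hd (Prod.ext
      (norm_le_zero_iff.1 (by rwa [h0, norm_zero] at h)) h0)
    exact ⟨false, h2, by
      show ‖d.1 / d.2‖ ≤ 1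
      rw [norm_div]
      exact div_le_one_of_le₀ h (norm_nonneg _)⟩
  · have h2 : d.1 ≠ 0 := fun h0 => hd (Prod.ext h0
      (norm_le_zero_iff.1 (by rwa [h0, norm_zero] at h)))
    exact ⟨true, h2, by
      show ‖d.2 / d.1‖ ≤ 1
      rw [norm_div]
      exact div_le_one_of_le₀ h (norm_nonneg _)⟩

theorem Fam.one (H : Fam ε Q) {b : Bool} {d : ℂ × ℂ} (h : cs b d ≠ 0) :
    Q 1 d = Q (cs b d ^ 2) (dir b (cu b d)) := by
  have h1 := H.hom 1 (cs b d) (dir b (cu b d)) h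
  rw [one_mul, smul_dir h] at h1
  exact h1.symm

theorem zpow_sm (k : ℤ) {z : ℂ} (hz : z ≠ 0) : ContDiffAt ℝ ∞ (fun z : ℂ => z ^ k) z := by
  have h1 : DifferentiableOn ℂ (fun z : ℂ => z ^ k) {0}ᶜ := fun y hy =>
    (differentiableAt_zpow.2 (Or.inl hy)).differentiableWithinAt
  exact (h1.analyticAt (isOpen_compl_singleton.mem_nhds hz)).contDiffAt.restrict_scalars ℝ

theorem Fam.core (H : Fam ε Q) (hε : 0 < ε) : ∃ σ : ℂ × ℂ → EuclideanSpace ℂ ι,
    ∀ᶠ d in 𝓝[≠] (0 : ℂ × ℂ), ContDiffAt ℝ ∞ σ d ∧ σ d ≠ 0 ∧ LB.act (Q 1 d) (σ d) = σ d := by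
  classical
  obtain ⟨k, s, hs, hne, hfix, hglue⟩ := H.frames hε
  let s' : ℂ × ℂ → EuclideanSpace ℂ ι := fun d =>
    if d.1 = 0 then d.2 ^ k • s false (d.1 / d.2) else d.1 ^ k • s true (d.2 / d.1)
  have hs' : ∀ b d, cs b d ≠ 0 → s' d = cs b d ^ k • s b (cu b d) := by
    rintro (_ | _) d h
    · have h2 : d.2 ≠ 0 := h
      by_cases h1 : d.1 = 0
      · simp only [s', if_pos h1]
        rfl
      · simp only [s', if_neg h1]
        rw [hglue _ (div_ne_zero h2 h1), inv_div, smul_smul, ← mul_zpow, mul_div_cancel₀ _ h1]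
        rfl
    · have h1 : d.1 ≠ 0 := h
      simp only [s', if_neg h1]
      rfl
  have hG : ∀ b, ∀ᶠ h in 𝓝 (0 : ℂ), ∀ u ∈ closedBall (0 : ℂ) 1,
      LB.act (Q h (dir b u)) (s b u) ≠ 0 := by
    intro b
    refine (isCompact_closedBall (0 : ℂ) 1).eventually_forall_of_forall_eventually
      fun u _ => ?_
    have h1 : ContDiffAt ℝ ∞ (fun w : ℂ × ℂ => LB.act (Q w.1 (dir b w.2)) (s b w.2)) (0, u) :=
      contDiffAt_act (H.sm b (0, u) (by simpa using hε))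
        ((hs b).contDiffAt.comp _ contDiffAt_snd)
    refine h1.continuousAt.eventually_ne ?_
    show LB.act (Q 0 (dir b u)) (s b u) ≠ 0
    rw [hfix]
    exact hne b u
  have hT : ∀ b, Tendsto (fun d => cs b d ^ 2) (𝓝 0) (𝓝 0) := fun b =>
    ((cs_sm b).continuous.pow 2).tendsto' 0 0 (by cases b <;> simp [cs])
  have hN : ∀ᶠ d in 𝓝 (0 : ℂ × ℂ), ‖d‖ ^ 2 < ε :=
    ((continuous_norm.pow 2).tendsto' (0 : ℂ × ℂ) 0 (by simp)).eventually (gt_mem_nhds hε)
  refine ⟨fun d => LB.act (Q 1 d) (s' d), ?_⟩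
  filter_upwards [self_mem_nhdsWithin, nhdsWithin_le_nhds hN,
    nhdsWithin_le_nhds (eventually_all.2 fun b => (hT b).eventually (hG b))] with d hd h1 h2
  obtain ⟨b, hb, hu⟩ := exists_b hd
  refine ⟨?_, ?_, by rw [← LB.act_mul, H.idem]⟩
  · have hev : ∀ᶠ y in 𝓝 d, cs b y ≠ 0 := (cs_sm b).continuous.continuousAt.eventually_ne hb
    have h3 : ContDiffAt ℝ ∞ (fun y => (cs b y ^ 2, cu b y)) d :=
      ((cs_sm b).contDiffAt.pow 2).prodMk (cu_sm hb)
    refine contDiffAt_act (fun i j => ?_) ?_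
    · have h4 := (H.sm b (cs b d ^ 2, cu b d) (by
        show ‖cs b d ^ 2‖ * ‖dir b (cu b d)‖ ^ 2 < ε
        rwa [norm_pow, ← mul_pow, ← norm_smul, smul_dir hb]) i j).comp d h3
      refine h4.congr_of_eventuallyEq ?_
      filter_upwards [hev] with y hy
      rw [H.one hy]
      rfl
    · have h4 : ContDiffAt ℝ ∞ (fun y => cs b y ^ k • s b (cu b y)) d :=
        ((zpow_sm k hb).comp d (cs_sm b).contDiffAt).smul ((hs b).contDiffAt.comp d (cu_sm hb))
      refine h4.congr_of_eventuallyEq ?_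
      filter_upwards [hev] with y hy
      exact hs' b y hy
  · rw [hs' b d hb, LB.act_smul, H.one hb]
    exact smul_ne_zero (zpow_ne_zero _ hb) (h2 b _ (by simpa using hu))

end Vale.Agent.P290Z.Cov.Tv
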